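import Mathlib
import Vale.Agent.Lib.P134.Split
import Vale.Agent.Lib.P134.Prod

namespace Vale.Agent.Results.P134.SeparableSolutions

open Laplacian Vale.Agent.Lib.P134

/-- De Giorgi's conjecture holds, in every dimension `n + 1`, within the class of separable
solutions: if `u` is a `C^2` solution of the Allen-Cahn equation `Δ u = u^3 - u` on
`ℝ^(n+1)` with `∂_{n+1} u > 0` everywhere, and `u` splits either as a sum
`u(x', t) = f(x') + g(t)` or as a product `u(x', t) = f(x') * g(t)` (with `x'` the first `n`
coordinates, `t` the last coordinate, and `f`, `g` arbitrary functions), then `u` depends only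
on the last coordinate, i.e. `u` is one-dimensional (with `e` the last unit vector).
No bound `|u| ≤ 1` is needed. -/
theorem result (n : ℕ) (u : EuclideanSpace ℝ (Fin (n + 1)) → ℝ)
    (hu : ContDiff ℝ 2 u)
    (heq : ∀ x, Laplacian.laplacian u x = u x ^ 3 - u x)
    (hmono : ∀ x, 0 < fderiv ℝ u x (EuclideanSpace.single (Fin.last n) 1))
    (f : (Fin n → ℝ) → ℝ) (g : ℝ → ℝ)
    (hsep : (∀ x, u x = f (fun i => x (Fin.castSucc i)) + g (x (Fin.last n))) ∨
      (∀ x, u x = f (fun i => x (Fin.castSucc i)) * g (x (Fin.last n)))) :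
    ∃ h : ℝ → ℝ, ∀ x, u x = h (x (Fin.last n)) := by
  have hFe : ∀ (z : EuclideanSpace ℝ (Fin (n + 1))) (s : ℝ),
      f (fun i => (z + s • EuclideanSpace.single (Fin.last n) (1 : ℝ)) (Fin.castSucc i))
        = f (fun i => z (Fin.castSucc i)) := by
    intro z s
    congr 1
    funext i
    simp [(Fin.castSucc_lt_last i).ne]
  rcases hsep with hsum | hprod
  · have hconst := additive_core u (fun x => f (fun i => x (Fin.castSucc i))) g
      (EuclideanSpace.single (Fin.last n) (1 : ℝ)) (EuclideanSpace.proj (Fin.last n))
      (by simp) hu heq hsum hFe hmono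
    refine ⟨fun t => f (fun i => (0 : EuclideanSpace ℝ (Fin (n + 1))) (Fin.castSucc i)) + g t,
      fun x => ?_⟩
    rw [hsum x]
    exact congrArg (fun c => c + g (x (Fin.last n))) (hconst x 0)
  · have hb : (EuclideanSpace.basisFun (Fin (n + 1)) ℝ) (Fin.last n)
        = EuclideanSpace.single (Fin.last n) (1 : ℝ) := by simp
    have hconst := multiplicative_core (EuclideanSpace.basisFun (Fin (n + 1)) ℝ) (Fin.last n)
      u (fun x => f (fun i => x (Fin.castSucc i))) g hu heq
      (by
        intro x
        rw [hb, EuclideanSpace.inner_single_left]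
        simpa using hprod x)
      (by rw [hb]; exact hFe)
      (by rw [hb]; exact hmono)
    refine ⟨fun t => f (fun i => (0 : EuclideanSpace ℝ (Fin (n + 1))) (Fin.castSucc i)) * g t,
      fun x => ?_⟩
    rw [hprod x]
    exact congrArg (fun c => c * g (x (Fin.last n))) (hconst x 0)

end Vale.Agent.Results.P134.SeparableSolutions
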